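import Mathlib

/-! # P208: gluing and compactness for bi-Lipschitz embeddings of doubling sets -/

open Finset

namespace Vale.Agent.P208

variable {E : Type} [NormedAddCommGroup E] [NormedSpace ℝ E]

/-- Doubling with constant `m`, centres in the set. -/
def Dbl (X : Set E) (m : ℕ) : Prop :=
  ∀ x ∈ X, ∀ r > 0, ∃ S : Finset E, (↑S : Set E) ⊆ X ∧ S.card ≤ m ∧
    ∀ y ∈ X, dist y x ≤ r → ∃ s ∈ S, dist y s ≤ r / 2

/-- Bi-Lipschitz embedding in `ℝ^k` with distortion at most `D` up to scale. -/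
def Emb (X : Set E) (k : ℕ) (D : ℝ) : Prop :=
  ∃ (a : ℝ) (f : X → EuclideanSpace ℝ (Fin k)), 0 < a ∧
    ∀ x y : X, a * dist (x : E) y ≤ dist (f x) (f y) ∧ dist (f x) (f y) ≤ D * a * dist (x : E) y

theorem Emb.mono {X : Set E} {k k' : ℕ} {D D' : ℝ} (hk : k ≤ k') (hD : D ≤ D') (h : Emb X k D) :
    Emb X k' D' := by
  obtain ⟨a, f, ha, hf⟩ := h
  let g : X → EuclideanSpace ℝ (Fin k') := fun x =>
    WithLp.toLp 2 fun i : Fin k' => if hi : (i : ℕ) < k then f x ⟨i, hi⟩ else 0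
  have hg : ∀ x y, dist (g x) (g y) = dist (f x) (f y) := by
    intro x y
    rw [EuclideanSpace.dist_eq, EuclideanSpace.dist_eq]
    congr 1
    obtain ⟨e, rfl⟩ := Nat.exists_eq_add_of_le hk
    rw [Fin.sum_univ_add]
    simp [g]
  refine ⟨a, g, ha, fun x y => ?_⟩
  rw [hg]
  refine ⟨(hf x y).1, (hf x y).2.trans ?_⟩
  have := dist_nonneg (x := (x : E)) (y := (y : E))
  nlinarith [mul_le_mul_of_nonneg_right hD (mul_nonneg ha.le this)]

/-- Compactness: embeddability is determined by finite subsets. -/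
theorem emb_of_finite {X : Set E} {k : ℕ} {D : ℝ} (hD : 0 ≤ D)
    (h : ∀ F : Finset E, (↑F : Set E) ⊆ X → Emb (↑F : Set E) k D) : Emb X k D := by
  classical
  rcases X.eq_empty_or_nonempty with rfl | ⟨x₀, hx₀⟩
  · exact ⟨1, fun x => absurd x.2 (Set.notMem_empty _), one_pos, fun x => absurd x.2 (Set.notMem_empty _)⟩
  let P : Set (X → EuclideanSpace ℝ (Fin k)) :=
    Set.univ.pi fun x : X => Metric.closedBall 0 (D * dist (x : E) x₀)
  have hP : IsCompact P := isCompact_univ_pi fun x => isCompact_closedBall _ _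
  let C : X × X → Set (X → EuclideanSpace ℝ (Fin k)) := fun p =>
    {f | dist (p.1 : E) p.2 ≤ dist (f p.1) (f p.2)} ∩ {f | dist (f p.1) (f p.2) ≤ D * dist (p.1 : E) p.2}
  have hC : ∀ p, IsClosed (C p) := fun p => by
    refine IsClosed.inter (isClosed_le continuous_const ?_) (isClosed_le ?_ continuous_const) <;>
      exact Continuous.dist (continuous_apply _) (continuous_apply _)
  have hfin : ∀ u : Finset (X × X), (P ∩ ⋂ p ∈ u, C p).Nonempty := by
    intro u
    let F : Finset E := insert x₀ (u.image (fun p => (p.1 : E)) ∪ u.image (fun p => (p.2 : E)))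
    have hF : (↑F : Set E) ⊆ X := by
      intro v hv
      simp only [F, Finset.coe_insert, Finset.coe_union, Finset.coe_image, Set.mem_insert_iff,
        Set.mem_union, Set.mem_image] at hv
      rcases hv with rfl | ⟨p, _, rfl⟩ | ⟨p, _, rfl⟩
      · exact hx₀
      · exact p.1.2
      · exact p.2.2
    obtain ⟨a, f, ha, hf⟩ := h F hF
    have hx₀F : x₀ ∈ (↑F : Set E) := by simp [F]
    let g : X → EuclideanSpace ℝ (Fin k) := fun x =>
      if hx : (x : E) ∈ (↑F : Set E) then a⁻¹ • (f ⟨x, hx⟩ - f ⟨x₀, hx₀F⟩) else 0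
    have hd : ∀ u v : (↑F : Set E), dist (a⁻¹ • (f u - f ⟨x₀, hx₀F⟩)) (a⁻¹ • (f v - f ⟨x₀, hx₀F⟩)) =
        dist (f u) (f v) / a := by
      intro u v
      rw [dist_smul₀, dist_sub_right, Real.norm_eq_abs, abs_inv, abs_of_pos ha, inv_mul_eq_div]
    refine ⟨g, ?_, ?_⟩
    · intro x _
      simp only [Metric.mem_closedBall, g]
      split_ifs with hx
      · have := hd ⟨x, hx⟩ ⟨x₀, hx₀F⟩
        rw [sub_self, smul_zero] at this
        rw [this, div_le_iff₀ ha]
        have := (hf ⟨x, hx⟩ ⟨x₀, hx₀F⟩).2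
        linarith
      · rw [dist_self]; positivity
    · simp only [Set.mem_iInter]
      intro p hp
      have h1 : (p.1 : E) ∈ (↑F : Set E) := by
        exact Finset.mem_insert_of_mem (Finset.mem_union_left _ (Finset.mem_image_of_mem (fun q : X × X => (q.1 : E)) hp))
      have h2 : (p.2 : E) ∈ (↑F : Set E) := by
        exact Finset.mem_insert_of_mem (Finset.mem_union_right _ (Finset.mem_image_of_mem (fun q : X × X => (q.2 : E)) hp))
      simp only [C, Set.mem_inter_iff, Set.mem_setOf_eq, g, dif_pos h1, dif_pos h2, hd]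
      obtain ⟨ha1, ha2⟩ := hf ⟨p.1, h1⟩ ⟨p.2, h2⟩
      rw [le_div_iff₀ ha, div_le_iff₀ ha]
      constructor <;> linarith
  obtain ⟨f, _, hf⟩ := hP.inter_iInter_nonempty C hC hfin
  refine ⟨1, f, one_pos, fun x y => ?_⟩
  have := Set.mem_iInter.1 hf (x, y)
  simp only [C, Set.mem_inter_iff, Set.mem_setOf_eq] at this
  simpa using this

/-- A finite subset of a doubling set is doubling. -/
theorem Dbl.finite {X : Set E} {m : ℕ} (hX : Dbl X m) {F : Finset E} (hF : (↑F : Set E) ⊆ X) :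
    Dbl (↑F : Set E) (m * m) := by
  classical
  intro x hx r hr
  obtain ⟨S, hSX, hSc, hS⟩ := hX x (hF hx) r hr
  have h2 : ∀ s : E, ∃ T : Finset E, s ∈ X → T.card ≤ m ∧
      ∀ y ∈ X, dist y s ≤ r / 2 → ∃ t ∈ T, dist y t ≤ r / 2 / 2 := by
    intro s
    by_cases hs : s ∈ X
    · obtain ⟨T, _, hTc, hT⟩ := hX s hs (r / 2) (by linarith)
      exact ⟨T, fun _ => ⟨hTc, hT⟩⟩
    · exact ⟨∅, fun h => absurd h hs⟩
  choose T hT using h2
  let pick : E → E := fun t => if h : ∃ y ∈ F, dist y t ≤ r / 2 / 2 then h.choose else x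
  refine ⟨(S.biUnion T).image pick, ?_, ?_, ?_⟩
  · intro v hv
    obtain ⟨t, _, rfl⟩ := Finset.mem_image.1 (Finset.mem_coe.1 hv)
    simp only [pick]
    split_ifs with h
    · exact h.choose_spec.1
    · exact hx
  · refine Finset.card_image_le.trans (Finset.card_biUnion_le.trans ?_)
    refine (Finset.sum_le_card_nsmul S _ m fun s hs => (hT s (hSX hs)).1).trans ?_
    rw [smul_eq_mul]; exact Nat.mul_le_mul_right m hSc
  · intro y hy hyx
    obtain ⟨s, hs, hys⟩ := hS y (hF hy) hyx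
    obtain ⟨t, ht, hyt⟩ := (hT s (hSX hs)).2 y (hF hy) hys
    refine ⟨pick t, Finset.mem_image_of_mem _ (Finset.mem_biUnion.2 ⟨s, hs, ht⟩), ?_⟩
    have hex : ∃ y ∈ F, dist y t ≤ r / 2 / 2 := ⟨y, hy, hyt⟩
    simp only [pick, dif_pos hex]
    have := hex.choose_spec.2
    have := dist_triangle_right y hex.choose t
    linarith

/-- Similarity images keep doubling. -/
theorem Dbl.similar {X : Set E} {m : ℕ} (hX : Dbl X m) (c : E) {t : ℝ} (ht : 0 < t) :
    Dbl ((fun v => c + t • v) '' X) m := by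
  classical
  have hd : ∀ u v : E, dist (c + t • u) (c + t • v) = t * dist u v := fun u v => by
    rw [dist_add_left, dist_smul₀, Real.norm_eq_abs, abs_of_pos ht]
  rintro _ ⟨x, hx, rfl⟩ r hr
  obtain ⟨S, hSX, hSc, hS⟩ := hX x hx (r / t) (div_pos hr ht)
  refine ⟨S.image fun v => c + t • v, ?_, Finset.card_image_le.trans hSc, ?_⟩
  · rw [Finset.coe_image]; exact Set.image_mono hSX
  · rintro _ ⟨y, hy, rfl⟩ hyx
    rw [hd] at hyx
    obtain ⟨s, hs, hys⟩ := hS y hy ((le_div_iff₀ ht).2 (by linarith))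
    refine ⟨_, Finset.mem_image_of_mem _ hs, ?_⟩
    rw [hd]
    calc t * dist y s ≤ t * (r / t / 2) := mul_le_mul_of_nonneg_left hys ht.le
      _ = r / 2 := by field_simp

/-- A ball of radius `2r` in a doubling block is covered by `m * m` balls of radius `r / 2`. -/
theorem Dbl.cover {X : Set E} {m : ℕ} (hX : Dbl X m) (p : E) {r : ℝ} (hr : 0 < r) :
    ∃ S : Finset E, (↑S : Set E) ⊆ X ∧ S.card ≤ m * m ∧
      ∀ y ∈ X, dist y p ≤ r → ∃ s ∈ S, dist y s ≤ r / 2 := by
  classical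
  by_cases hex : ∃ z ∈ X, dist z p ≤ r
  · obtain ⟨z, hz, hzp⟩ := hex
    obtain ⟨S, hSX, hSc, hS⟩ := hX z hz (2 * r) (by linarith)
    have h2 : ∀ s : E, ∃ T : Finset E, s ∈ X → (↑T : Set E) ⊆ X ∧ T.card ≤ m ∧
        ∀ y ∈ X, dist y s ≤ r → ∃ t ∈ T, dist y t ≤ r / 2 := by
      intro s
      by_cases hs : s ∈ X
      · obtain ⟨T, hT⟩ := hX s hs r hr
        exact ⟨T, fun _ => hT⟩
      · exact ⟨∅, fun h => absurd h hs⟩
    choose T hT using h2
    refine ⟨S.biUnion T, ?_, ?_, ?_⟩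
    · intro v hv
      obtain ⟨s, hs, hv⟩ := Finset.mem_biUnion.1 (Finset.mem_coe.1 hv)
      exact (hT s (hSX hs)).1 hv
    · refine Finset.card_biUnion_le.trans ?_
      refine (Finset.sum_le_card_nsmul S _ m fun s hs => (hT s (hSX hs)).2.1).trans ?_
      rw [smul_eq_mul]; exact Nat.mul_le_mul_right m hSc
    · intro y hy hyp
      obtain ⟨s, hs, hys⟩ := hS y hy (by linarith [dist_triangle_right y z p])
      obtain ⟨t, ht, hyt⟩ := (hT s (hSX hs)).2.2 y hy (by linarith)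
      exact ⟨t, Finset.mem_biUnion.2 ⟨s, hs, ht⟩, hyt⟩
  · exact ⟨∅, by simp, by simp, fun y hy h => absurd ⟨y, hy, h⟩ hex⟩

/-- If no bound works for finite `m`-doubling sets, one doubling set embeds in no `ℝ^k`. -/
theorem glue [Nontrivial E] {m : ℕ}
    (hbad : ∀ n : ℕ, ∃ F : Finset E, Dbl (↑F : Set E) m ∧ ¬ Emb (↑F : Set E) n n) :
    ∃ (X : Set E) (M : ℕ), Dbl X M ∧ ∀ k D, ¬ Emb X k D := by
  classical
  choose F hFd hFn using hbad
  obtain ⟨v, hv⟩ := exists_ne (0 : E)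
  let e : E := ‖v‖⁻¹ • v
  have he : ‖e‖ = 1 := by
    rw [norm_smul, norm_inv, norm_norm, inv_mul_cancel₀ (norm_ne_zero_iff.2 hv)]
  let R : ℕ → ℝ := fun n => 1 + ∑ z ∈ F n, ‖z‖
  have hR : ∀ n, 0 < R n := fun n => by
    have : 0 ≤ ∑ z ∈ F n, ‖z‖ := Finset.sum_nonneg fun z _ => norm_nonneg z
    simp only [R]; linarith
  let c : ℕ → E := fun n => (16 : ℝ) ^ (n + 1) • e
  let B : ℕ → Set E := fun n => (fun z => c n + (R n)⁻¹ • z) '' (↑(F n) : Set E)
  have hBd : ∀ n, Dbl (B n) m := fun n => (hFd n).similar (c n) (inv_pos.2 (hR n))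
  have hBc : ∀ n, ∀ y ∈ B n, dist y (c n) ≤ 1 := by
    rintro n _ ⟨z, hz, rfl⟩
    rw [dist_eq_norm, add_sub_cancel_left, norm_smul, norm_inv, Real.norm_eq_abs, abs_of_pos (hR n),
      inv_mul_le_iff₀ (hR n), mul_one]
    have := Finset.single_le_sum (f := fun z : E => ‖z‖) (fun z _ => norm_nonneg z) hz
    simp only [R]; linarith
  have hcn : ∀ n, ‖c n‖ = (16 : ℝ) ^ (n + 1) := fun n => by
    rw [norm_smul, he, mul_one, norm_pow, Real.norm_ofNat]
  have hB0 : ∀ n, ∀ y ∈ B n, ‖y‖ ≤ 16 ^ (n + 1) + 1 ∧ (16 : ℝ) ^ (n + 1) - 1 ≤ ‖y‖ := by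
    intro n y hy
    have h := hBc n y hy
    rw [dist_eq_norm] at h
    have h1 := norm_le_insert' y (c n)
    have h2 := norm_le_insert' (c n) y
    rw [norm_sub_rev] at h2
    rw [hcn] at h1 h2
    exact ⟨by linarith, by linarith⟩
  have hsep : ∀ i j, i < j → ∀ y ∈ B i, ∀ z ∈ B j, (16 : ℝ) ^ (j + 1) / 2 ≤ dist y z := by
    intro i j hij y hy z hz
    have h1 := (hB0 i y hy).1
    have h2 := (hB0 j z hz).2
    have h3 : (16 : ℝ) ^ (i + 1) * 16 ≤ 16 ^ (j + 1) := by
      rw [← pow_succ]; exact pow_le_pow_right₀ (by norm_num) (by omega)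
    have h4 : (16 : ℝ) ≤ 16 ^ (i + 1) := by
      calc (16 : ℝ) = 16 ^ 1 := by norm_num
        _ ≤ _ := pow_le_pow_right₀ (by norm_num) (by omega)
    have h5 := norm_le_insert' z y
    rw [dist_eq_norm, norm_sub_rev]
    linarith
  let X : Set E := insert 0 (⋃ n, B n)
  refine ⟨X, 1 + 3 * (m * m), ?_, ?_⟩
  · intro x hx r hr
    have hfar : ∀ j y, y ∈ B j → dist y x ≤ r → r / 2 < ‖y‖ → x ∈ B j ∨
        ((16 : ℝ) ^ (j + 1) / 2 ≤ 2 * r ∧ r / 4 < 16 ^ (j + 1)) := by
      intro j y hy hyx hyr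
      have h16 : (16 : ℝ) ≤ 16 ^ (j + 1) := by
        calc (16 : ℝ) = 16 ^ 1 := by norm_num
          _ ≤ _ := pow_le_pow_right₀ (by norm_num) (by omega)
      have hlow : r / 4 < 16 ^ (j + 1) := by
        have := (hB0 j y hy).1; linarith
      rcases Set.mem_insert_iff.1 hx with rfl | hxU
      · right
        rw [dist_zero_right] at hyx
        have := (hB0 j y hy).2
        exact ⟨by linarith, hlow⟩
      · obtain ⟨i, hxi⟩ := Set.mem_iUnion.1 hxU
        rcases lt_trichotomy i j with h | h | h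
        · right
          have := hsep i j h x hxi y hy
          rw [dist_comm x y] at this
          exact ⟨by linarith, hlow⟩
        · exact Or.inl (h ▸ hxi)
        · right
          have := hsep j i h y hy x hxi
          have h3 : (16 : ℝ) ^ (j + 1) ≤ 16 ^ (i + 1) := pow_le_pow_right₀ (by norm_num) (by omega)
          exact ⟨by linarith, hlow⟩
    have huniq : ∀ j j', ((16 : ℝ) ^ (j + 1) / 2 ≤ 2 * r ∧ r / 4 < 16 ^ (j + 1)) →
        ((16 : ℝ) ^ (j' + 1) / 2 ≤ 2 * r ∧ r / 4 < 16 ^ (j' + 1)) → j < j' + 2 := by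
      intro j j' h h'
      by_contra hc
      have h3 : (16 : ℝ) ^ (j' + 1) * 256 ≤ 16 ^ (j + 1) := by
        rw [show (256 : ℝ) = 16 ^ 2 by norm_num, ← pow_add]
        exact pow_le_pow_right₀ (by norm_num) (by omega)
      linarith [h.1, h.2, h'.1, h'.2]
    choose S hSX hSc hS using fun j => (hBd j).cover x hr
    have hblocks : ∃ J : Finset ℕ, J.card ≤ 3 ∧ ∀ j, (x ∈ B j ∨ ((16 : ℝ) ^ (j + 1) / 2 ≤ 2 * r ∧
        r / 4 < 16 ^ (j + 1))) → j ∈ J := by
      have hxu : ∀ i j, x ∈ B i → x ∈ B j → i = j := by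
        intro i j hi hj
        by_contra hne
        rcases lt_or_gt_of_ne hne with h | h
        · have := hsep i j h x hi x hj
          rw [dist_self] at this
          linarith [pow_pos (by norm_num : (0 : ℝ) < 16) (j + 1)]
        · have := hsep j i h x hj x hi
          rw [dist_self] at this
          linarith [pow_pos (by norm_num : (0 : ℝ) < 16) (i + 1)]
      let P : ℕ → Prop := fun j => (16 : ℝ) ^ (j + 1) / 2 ≤ 2 * r ∧ r / 4 < 16 ^ (j + 1)
      have h1 : ∃ J : Finset ℕ, J.card ≤ 1 ∧ ∀ j, x ∈ B j → j ∈ J := by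
        by_cases h : ∃ i, x ∈ B i
        · obtain ⟨i, hi⟩ := h
          exact ⟨{i}, by simp, fun j hj => by simp [hxu j i hj hi]⟩
        · exact ⟨∅, by simp, fun j hj => absurd ⟨j, hj⟩ h⟩
      have h2 : ∃ J : Finset ℕ, J.card ≤ 2 ∧ ∀ j, P j → j ∈ J := by
        by_cases h : ∃ i, P i
        · refine ⟨Finset.Icc (Nat.find h) (Nat.find h + 1), by simp [Nat.card_Icc]; omega, fun j hj => ?_⟩
          have := huniq j (Nat.find h) hj (Nat.find_spec h)
          have := Nat.find_min' h hj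
          simp only [Finset.mem_Icc]; omega
        · exact ⟨∅, by simp, fun j hj => absurd ⟨j, hj⟩ h⟩
      obtain ⟨J₁, hc1, hJ1⟩ := h1
      obtain ⟨J₂, hc2, hJ2⟩ := h2
      refine ⟨J₁ ∪ J₂, (Finset.card_union_le _ _).trans (by omega), fun j hj => ?_⟩
      rcases hj with h | h
      · exact Finset.mem_union_left _ (hJ1 j h)
      · exact Finset.mem_union_right _ (hJ2 j h)
    obtain ⟨J, hJc, hJ⟩ := hblocks
    refine ⟨insert 0 (J.biUnion S), ?_, ?_, ?_⟩
    · intro u hu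
      rcases Finset.mem_insert.1 (Finset.mem_coe.1 hu) with rfl | hu
      · exact Set.mem_insert _ _
      · obtain ⟨j, _, hu⟩ := Finset.mem_biUnion.1 hu
        exact Set.mem_insert_of_mem _ (Set.mem_iUnion.2 ⟨j, hSX j hu⟩)
    · refine (Finset.card_insert_le _ _).trans ?_
      have := Finset.card_biUnion_le.trans (Finset.sum_le_card_nsmul J _ (m * m) fun j _ => hSc j)
      rw [smul_eq_mul] at this
      have := this.trans (Nat.mul_le_mul_right (m * m) hJc)
      omega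
    · intro y hy hyx
      by_cases hyr : ‖y‖ ≤ r / 2
      · exact ⟨0, Finset.mem_insert_self _ _, by rwa [dist_zero_right]⟩
      · rcases Set.mem_insert_iff.1 hy with rfl | hyU
        · rw [norm_zero] at hyr; exact absurd (by linarith) hyr
        · obtain ⟨j, hyj⟩ := Set.mem_iUnion.1 hyU
          obtain ⟨s, hs, hys⟩ := hS j y hyj hyx
          exact ⟨s, Finset.mem_insert_of_mem (Finset.mem_biUnion.2
            ⟨j, hJ j (hfar j y hyj hyx (not_le.1 hyr)), hs⟩), hys⟩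
  · rintro k D ⟨a, f, ha, hf⟩
    obtain ⟨n, hn⟩ := exists_nat_ge (max (k : ℝ) D)
    refine hFn n (Emb.mono (D := D) (by exact_mod_cast (le_max_left (k : ℝ) D).trans hn)
      ((le_max_right _ _).trans hn) ⟨a * (R n)⁻¹, fun z => f ⟨c n + (R n)⁻¹ • (z : E),
        Set.mem_insert_of_mem _ (Set.mem_iUnion.2 ⟨n, ⟨z, z.2, rfl⟩⟩)⟩, ?_, fun x y => ?_⟩)
    · exact mul_pos ha (inv_pos.2 (hR n))
    · have h := hf ⟨c n + (R n)⁻¹ • (x : E), Set.mem_insert_of_mem _ (Set.mem_iUnion.2 ⟨n, ⟨x, x.2, rfl⟩⟩)⟩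
        ⟨c n + (R n)⁻¹ • (y : E), Set.mem_insert_of_mem _ (Set.mem_iUnion.2 ⟨n, ⟨y, y.2, rfl⟩⟩)⟩
      simp only [dist_add_left, dist_smul₀, Real.norm_eq_abs, abs_of_pos (inv_pos.2 (hR n))] at h
      constructor <;> nlinarith [h.1, h.2]

end Vale.Agent.P208
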